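import Mathlib.LinearAlgebra.LinearIndependent.Basic
import Mathlib.Algebra.CharZero.Defs
import Mathlib.Dynamics.PeriodicPts.Lemmas
import Mathlib.Data.Set.Card
import Mathlib.Tactic

/-! P022K, curve side: comparison of power sums (helper57). -/

set_option linter.all false

namespace Vale.Agent.P022K.Ih

open Finset

variable {K : Type*} [Field K]

/-- the characters `m ↦ x ^ m` are independent -/
theorem ps_zero {ι : Type*} [DecidableEq K] (s : Finset ι) (c x : ι → K)
    (h : ∀ m, 0 < m → ∑ i ∈ s, c i * x i ^ m = 0) {y : K} (hy : y ≠ 0) :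
    ∑ i ∈ s with x i = y, c i = 0 := by
  by_cases hm : y ∈ s.image x
  swap
  · exact sum_eq_zero fun i hi => absurd (mem_image.2 ⟨i, (mem_filter.1 hi).1, (mem_filter.1 hi).2⟩) hm
  have li := (linearIndependent_monoidHom (Multiplicative ℕ) K).comp (powersHom K)
    (powersHom K).injective
  have := linearIndependent_iff'.1 li (s.image x) (fun z => (∑ i ∈ s with x i = z, c i) * z) (by
    funext m
    rw [Finset.sum_apply, Pi.zero_apply, ← h (m.toAdd + 1) (Nat.succ_pos _),
      ← sum_fiberwise_of_maps_to (fun i hi => mem_image_of_mem x hi)]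
    refine sum_congr rfl fun z _ => ?_
    rw [Pi.smul_apply, smul_eq_mul, mul_assoc, sum_mul]
    refine sum_congr rfl fun i hi => ?_
    rw [(mem_filter.1 hi).2, pow_succ']
    rfl) y hm
  exact (mul_eq_zero.1 this).resolve_right hy

/-- the power sums of a multiset -/
def ps (A : Multiset K) (m : ℕ) : K := (A.map fun a => a ^ m).sum

theorem ps_add (A B : Multiset K) (m : ℕ) : ps (A + B) m = ps A m + ps B m := by
  simp [ps]

theorem ps_replicate (n : ℕ) (a : K) (m : ℕ) : ps (Multiset.replicate n a) m = n * a ^ m := by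
  simp [ps]

theorem ps_map_pow (A : Multiset K) (M m : ℕ) : ps (A.map fun a => a ^ M) m = ps A (M * m) := by
  simp [ps, pow_mul]

theorem ps_bind {ι : Type*} (s : Finset ι) (A : ι → Multiset K) (m : ℕ) :
    ps (∑ i ∈ s, A i) m = ∑ i ∈ s, ps (A i) m := by
  classical
  induction s using Finset.induction_on with
  | empty => simp [ps]
  | insert a s ha ih => rw [sum_insert ha, sum_insert ha, ps_add, ih]

theorem ps_eq_sum [DecidableEq K] (A : Multiset K) {s : Finset K} (hs : A.toFinset ⊆ s) (m : ℕ) :
    ps A m = ∑ a ∈ s, (A.count a : K) * a ^ m := by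
  rw [ps, Finset.sum_multiset_map_count, sum_subset hs fun a _ ha => by
    rw [Multiset.count_eq_zero_of_notMem (mt Multiset.mem_toFinset.2 ha), zero_smul]]
  simp

variable [CharZero K] [DecidableEq K]

/-- power sums whose difference has period `M` -/
theorem count_eq_of_per {A B : Multiset K} {M : ℕ}
    (h : ∀ m, 0 < m → ps A (m + M) - ps B (m + M) = ps A m - ps B m) {y : K} (h0 : y ≠ 0)
    (h1 : y ^ M ≠ 1) : A.count y = B.count y := by
  have := ps_zero (insert y (A.toFinset ∪ B.toFinset))
    (fun a => ((A.count a : K) - B.count a) * (a ^ M - 1)) id (fun m hm => by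
      have := h m hm
      simp only [ps_eq_sum A ((subset_union_left (s₂ := B.toFinset)).trans (subset_insert y _)),
        ps_eq_sum B ((subset_union_right (s₁ := A.toFinset)).trans (subset_insert y _)),
        ← sum_sub_distrib] at this
      rw [← sub_eq_zero, ← sum_sub_distrib] at this
      rw [← this]
      exact sum_congr rfl fun a _ => by simp only [id]; ring) h0
  simp only [id] at this
  rw [filter_eq', if_pos (mem_insert_self _ _), sum_singleton, mul_eq_zero, sub_eq_zero,
    sub_eq_zero] at this
  exact Nat.cast_injective (this.resolve_right h1)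

/-- power sums whose difference is constant -/
theorem count_eq_of_const {A B : Multiset K} {c : K} (h : ∀ m, 0 < m → ps A m + c = ps B m)
    {y : K} (h0 : y ≠ 0) (h1 : y ≠ 1) : A.count y = B.count y :=
  count_eq_of_per (M := 1) (fun m hm => by
    linear_combination h (m + 1) (Nat.succ_pos _) - h m hm) h0 (by rwa [pow_one])

/-- equal power sums -/
theorem count_eq_of_ps {A B : Multiset K} (h : ∀ m, 0 < m → ps A m = ps B m) {y : K}
    (h0 : y ≠ 0) : A.count y = B.count y := by
  have := ps_zero (insert y (A.toFinset ∪ B.toFinset))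
    (fun a => (A.count a : K) - B.count a) id (fun m hm => by
      have := h m hm
      rw [ps_eq_sum A ((subset_union_left (s₂ := B.toFinset)).trans (subset_insert y _)),
        ps_eq_sum B ((subset_union_right (s₁ := A.toFinset)).trans (subset_insert y _)),
        ← sub_eq_zero, ← sum_sub_distrib] at this
      rw [← this]
      exact sum_congr rfl fun a _ => by simp only [id]; ring) h0
  simp only [id] at this
  rw [filter_eq', if_pos (mem_insert_self _ _), sum_singleton, sub_eq_zero] at this
  exact Nat.cast_injective this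

/-- **The comparison of the two counts.** `A` are the roots of the Hecke polynomials (stable under
`a ↦ Q / a`), `W` the reciprocal roots of the residue curves, `h` the number of components, `r` the
number of residue curves. -/
theorem compare {A W : Multiset K} {Q c : K} {h r : ℕ} (Q0 : Q ≠ 0) (Q1 : Q ≠ 1)
    (hA : ∀ a ∈ A, ∃ b ∈ A, a * b = Q) (hW : Q ∉ W) (hr : h ≤ r)
    (e : ∀ m, 0 < m → h * Q ^ m - ps A m + c = r * Q ^ m - ps W m) :
    r = h ∧ A ≤ W ∧ Q ∉ A ∧ 1 ∉ A ∧ ∀ w ∈ W, w ≠ 0 → w ≠ 1 → W.count w = A.count w := by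
  have k : ∀ y, y ≠ 0 → y ≠ 1 → (Multiset.replicate h Q + W).count y =
      (Multiset.replicate r Q + A).count y := fun y => count_eq_of_const (c := c) fun m hm => by
    rw [ps_add, ps_add, ps_replicate, ps_replicate]
    linear_combination e m hm
  have k1 := k Q Q0 Q1
  rw [Multiset.count_add, Multiset.count_add, Multiset.count_replicate_self,
    Multiset.count_replicate_self, Multiset.count_eq_zero_of_notMem hW] at k1
  have nQ : Q ∉ A := Multiset.count_eq_zero.1 (by omega)
  have n1 : (1 : K) ∉ A := fun m => by
    obtain ⟨b, hb, e⟩ := hA 1 m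
    exact nQ (by rwa [← e, one_mul])
  have hrh : r = h := by omega
  have k2 : ∀ y, y ≠ 0 → y ≠ 1 → W.count y = A.count y := fun y a b => by
    have := k y a b
    rw [Multiset.count_add, Multiset.count_add, hrh] at this
    omega
  refine ⟨hrh, Multiset.le_iff_count.2 fun y => ?_, nQ, n1, fun w _ => k2 w⟩
  by_cases m : y ∈ A
  · obtain ⟨b, -, e⟩ := hA y m
    exact (k2 y (fun z => Q0 (by rw [← e, z, zero_mul])) fun z => n1 (z ▸ m)).ge
  · rw [Multiset.count_eq_zero_of_notMem m]
    exact Nat.zero_le _

/-- the periodic points of a self-map which lie in a finite set have a common period -/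
theorem exists_period {α : Type*} (f : α → α) {E : Set α} (hE : E.Finite) : ∃ M, 0 < M ∧
    ∀ m, 0 < m → ∀ x ∈ E, (f^[M * m] x = x ↔ x ∈ Function.periodicPts f) := by
  classical
  refine ⟨∏ x ∈ hE.toFinset with x ∈ Function.periodicPts f, Function.minimalPeriod f x,
    prod_pos fun x hx => Function.minimalPeriod_pos_of_mem_periodicPts (mem_filter.1 hx).2,
    fun m hm x hx => ⟨fun e => Function.mk_mem_periodicPts (Nat.mul_pos (prod_pos fun x hx =>
      Function.minimalPeriod_pos_of_mem_periodicPts (mem_filter.1 hx).2) hm) e, fun e => ?_⟩⟩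
  exact Function.isPeriodicPt_iff_minimalPeriod_dvd.2 ((dvd_prod_of_mem _
    (mem_filter.2 ⟨hE.mem_toFinset.2 hx, e⟩)).mul_right m)

end Vale.Agent.P022K.Ih
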